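/-!
# Row 191 (S0291): a group without fixed price. Blueprint (helper55)

All definitions are in `Defs.lean`. Every other file of this folder holds lemma statements; the
owner of a file proves them WITHOUT changing the statements (extra lemmas are welcome, in the same
file or in a new file of yours).

## Group and geometry
`F` free on 99 letters, `σ_0 = 1`, `σ_i` the letters, `y_i = σ_i⁻¹ σ_{i+1}` (cyclic, so
`y_0 ⋯ y_99 = 1`), `U = ⟨y_0⁻¹ y_j⟩`, `Γ = FreeGroup (F ⧸ U) ⋊ F = F *_U (U × ⟨t⟩)`, `G = U × ⟨t⟩`,
`a = y_0`. Complex: vertices `Γ ⧸ G`; edge ("variable") `z ∈ Γ` from `zG` to `zaG`; polygon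
("check") `c ∈ Γ` with sides `cσ_i`, since `cσ_i a G = cσ_{i+1} G`. The incidence graph
checks/variables is a forest (Tree.lean). The group element `γ` stands for the orbit point `γ⁻¹ x`.

## Upper bound (Upper.lean)
`X × ZMod M`, `Γ` acting on `ZMod M` by adding `chi` (`σ_i ↦ i`, `t ↦ 0`). Graphing: `t` everywhere
(cost 1), the 100 generators `y_0⁻¹ y_j` of `U` on a marker set `D × ZMod M` (they commute with
`t`, so all of `G` is generated on points whose whole orbit has `t`-orbits meeting `D`), and `a⁻¹`
on the levels `0..98` (cost `99/M`). Call `y` known if `y ~ a⁻¹ y`. For a point `p` the points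
`σ_i⁻¹ p` have levels `lev p - i`; `a⁻¹ σ_i⁻¹ p` is `G`-related to `σ_{i+1}⁻¹ p`; so if
`σ_i⁻¹ p` is known for `i ≤ 98` then `σ_99⁻¹ p` is known. Induct downwards on the level. `G` and
`a` generate `Γ`.

## Lower bound
A structure `Y : Str X` gives, seen from `x`, an equivalence relation `S x z` of finite rank on
the vertices over the two ends of each variable `z`, extra vertices, and credits
`m ≤ ∑ rk (S (cσ_i)) - rk (⨆ S (cσ_i))` (the cycle rank over the polygon).
`Phi = E - M`, `df = E - M - V`.
1. Start.lean. From a graphing `(g_i, A_i)` of cost `< 1 + c`: vertices `ex γ 0` for all points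
   (`V ≥ 1`), for `i` in a finite set `I` and `γ⁻¹ x ∈ A_i` an arc from `ex γ 0` to `ex (γ g_i⁻¹) 0`
   along `exists_path (g_i⁻¹)` with `l_i - 1` new vertices `ex (γ p_j) (label i j)` and `l_i`
   pairs, the `j`-th one put on the variable `γ z_j`; on the variable `1` the pair
   `(ex 1 0, sp 1)` when `x ∈ D ∪ Bad` and `(sp 1, sp a)` when `x ∈ Bad`, where `Bad` is the set
   of points where these two pairs are not yet connected (its measure tends to 0 as `I` grows,
   because on free points the graphing connects all `ex γ 0`, and markers connect them to every
   `sp q`). Then `E ≤ ∑ l_i μ A_i + μ D + 2 μ Bad`, `V = 1 + ∑ (l_i - 1) μ A_i`, `m = 0`.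
2. Seq/Star/Delete. Operate on a family of extra vertices one at a time in the order `key`
   (only finitely many matter for a given variable or polygon, Tele.lean). Operating on `w`
   lowers `rk` by one exactly on a set `H w` of variables, and the cycle rank over `c` by at most
   `(|H w ∩ c| - 1)⁺`. `hyperforest` and mass transport give `Phi' + #{w | H w ≠ ∅} ≤ Phi`.
3. Prune. Leaves can be deleted. Weak vertices (degree ≤ 2) that close a cycle (`CycAt`) can be
   deleted: a class inside `P` is impossible (its largest element needs a larger partner); for
   connectivity first delete the points whose polygon is `c` in increasing order (the two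
   remainders stay connected by definition of `CycAt`), then the points belonging to other
   polygons, which meet only one side of `c` (two polygons share at most one side: `hyperforest`
   with two elements). So a near-minimiser has `L ≤ δ`, `∫ cy ≤ δ`.
4. Count. `weight_ineq` + `lintegral_slots` give `2 Rrob + 6 V ≤ 6 E + 6 L`. On folded polygons
   `m - cy ≤ rk (srob)` on each side (`folded_poly`: use `le_rk` with the head-side points of the
   sides `j ≠ i`), so expansion gives `14 (M - δ - ∫_BadPoly m) ≤ Rrob ≤ 3 (df + M + δ)`.
5. Fold. Let `Sl Y = ∫ encard (supp (s x) ∩ extra vertices) ≤ 2 E`, `n` with `Sl Y / n ≤ σ`.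
   Among successors `Y'` with `m' ≤ m`, `Phi' ≤ Phi`, `df' + Sl Y'/n ≤ df + Sl Y/n` take one with
   `V` within `η'` of the infimum. Star move 1 sends every extra vertex of degree `> n` to the
   special vertex (cost in `df` at most their number `≤ (Sl - Sl')/n`). Now degrees are `≤ n`.
   `W` = extra vertices related on some variable to another vertex with the same base;
   `μ Bad ≤ n |W|`; by `separate_vtx` a star move with witnesses removes `|W|/5` vertices, so
   `|W| ≤ 5 η'`.
6. Attach. Add the pair on the side `i`; credit the polygon when the pair was not yet related.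
7. Force. States: `(Y, ρ)` with `Valid Y`, `df < ε`, `Phi ≤ Phi Y₀`, `Succ Y₀ Y ρ`. Facts:
   `(z, u, v)`: `S x z (ρ u) (ρ v)`; `(c, u, v)`: `J x c (ρ u) (ρ v)`. A measurable set `B` forces
   a fact if above every state, for every `η`, some state has the fact on `B` up to measure `η`.
   Forcing sets are closed under countable unions, so each fact has an a.e. largest forcing set.
   For a.e. `x` the largest sets define a family that contains `Y₀.S x` and is `Closed`
   (fold gives `transfer`; fold + M_bound + attach on the pieces of the small cover give
   `attach`). `dehn` shows that `(1, sp 1, sp a)` is forced by the whole space.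
8. Lower. Pigeonhole on `ε ↦ inf Phi` over `[1/500, 1/250]`, then
   `1/2 ≤ μ (sp 1 ~ sp a) ≤ Rrob ≤ 3 (1/250 + 1/100 + 1/2000)`, absurd.

## Dehn.lean
`u ≈ v` iff same base and `D 1 u v`; `≈ ≤ D z`. Peeling lemma: cells `κ` with variables `Z_κ`,
new vertices `New_κ` (disjoint, touched only by `Z_κ` among the variables of the current level),
old vertices `Old_κ`, a relation `R_κ ≥ D z` (`z ∈ Z_κ`) such that `R_κ`-related points over
`Old_κ` are related at the lower level. Project a point over `New_κ` to an `R_κ`-related point
over `Old_κ` (or to a fixed representative of its `R_κ` class when there is none); every step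
maps to a lower-level relation. Layer 1 (one coset `nF`): level of a variable = rank of its parent
check + 1, cells = checks, `Old` = ends of the base side, `R = ⨆ j, D (cσ_j)` and `Closed.attach`.
That new corners are touched only by the two children or by deeper variables: the set of
half-variables generated from the two children by going down is closed under the moves
`(z, head) ↔ (z y_i, tail)`, hence under `U`. Layer 2: level of `(n, f)` = `norm n`; the vertex
`(n, f) G` meets the cosets `n t_q^k F` (`q = fU`); cells = cosets, `Old` = the gate (when `n` ends
with `t_q^{±1}`), and layer 1 + `Closed.transfer` relate two points over the gate.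

## Expand.lean
Approximate `A` by a cylinder set; expand its indicator in Walsh functions `χ_S`
(`S` finite subset of `Gam × ℕ`, orthonormal); `h = ∑_i 1_A (σ_i y)` has mean `100 p` and
`∫ h² ≤ 10⁴ p² + 398 p`, because on the free `F`-set of non-empty finite subsets the operator
`φ ↦ ∑_i φ (σ_i ·)` has squared norm `≤ 2 (99 + 100)` by `exists_rooting` (parent part + children
part). Cauchy-Schwarz: `(100 p)² ≤ μ (N A) ∫ h²`.
-/
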